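import Vale.Agent.P218SQ.Defs
import Mathlib.Analysis.SpecialFunctions.Pow.Asymptotics

/-! The level of the cut of the real family, and absorption of the cut-off errors. -/

open Set Filter Topology

namespace Vale.Agent.P218LB

open Vale.Agent.P218SQ

variable {ι κ : Type*} [Fintype ι] [Fintype κ]

/-- the level `min (n + 1, 1 / (2 |a|))` -/
noncomputable def lvl (n : ℕ) (x : (ι → ℝ) × (κ → ℝ)) : ℝ := (max (1 / ((n : ℝ) + 1)) (2 * ‖x.1‖))⁻¹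

omit [Fintype κ] in
lemma lvl_den_pos (n : ℕ) (x : (ι → ℝ) × (κ → ℝ)) : 0 < max (1 / ((n : ℝ) + 1)) (2 * ‖x.1‖) :=
  lt_max_of_lt_left (by positivity)

omit [Fintype κ] in
lemma lvl_pos (n : ℕ) (x : (ι → ℝ) × (κ → ℝ)) : 0 < lvl n x := inv_pos.2 (lvl_den_pos n x)

omit [Fintype κ] in
lemma norm_mul_lvl (n : ℕ) (x : (ι → ℝ) × (κ → ℝ)) : ‖x.1‖ * lvl n x ≤ 1 / 2 := by
  unfold lvl
  rw [← div_eq_mul_inv, div_le_iff₀ (lvl_den_pos n x)]
  linarith [le_max_right (1 / ((n : ℝ) + 1)) (2 * ‖x.1‖)]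

omit [Fintype κ] in
lemma lvl_le (n : ℕ) (x : (ι → ℝ) × (κ → ℝ)) : lvl n x ≤ n + 1 := by
  unfold lvl
  rw [inv_le_comm₀ (lvl_den_pos n x) (by positivity), ← one_div]
  exact le_max_left _ _

omit [Fintype κ] in
lemma lvl_zero (n : ℕ) : lvl n (0 : (ι → ℝ) × (κ → ℝ)) = n + 1 := by
  unfold lvl
  rw [Prod.fst_zero, norm_zero, mul_zero, max_eq_left (by positivity), one_div, inv_inv]

omit [Fintype κ] in
lemma lvl_cases (n : ℕ) (x : (ι → ℝ) × (κ → ℝ)) :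
    lvl n x = n + 1 ∨ (lvl n x)⁻¹ = 2 * ‖x.1‖ := by
  unfold lvl
  rcases max_cases (1 / ((n : ℝ) + 1)) (2 * ‖x.1‖) with h | h
  · left; rw [h.1, one_div, inv_inv]
  · right; rw [h.1, inv_inv]

omit [Fintype κ] in
lemma continuous_lvl (n : ℕ) : Continuous (lvl n : (ι → ℝ) × (κ → ℝ) → ℝ) :=
  (continuous_const.max (continuous_const.mul continuous_fst.norm)).inv₀
    fun x => (lvl_den_pos n x).ne'

lemma tendsto_lvl : Tendsto (fun p : ℕ × ((ι → ℝ) × (κ → ℝ)) => lvl p.1 p.2) (atTop ×ˢ 𝓝 0)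
    atTop := by
  refine tendsto_inv_nhdsGT_zero.comp (tendsto_nhdsWithin_iff.2 ⟨?_,
    Eventually.of_forall fun p => lvl_den_pos _ _⟩)
  have h1 : Tendsto (fun p : ℕ × ((ι → ℝ) × (κ → ℝ)) => 1 / ((p.1 : ℝ) + 1)) (atTop ×ˢ 𝓝 0)
      (𝓝 0) := (tendsto_one_div_add_atTop_nhds_zero_nat (𝕜 := ℝ)).comp tendsto_fst
  have h2 : Tendsto (fun p : ℕ × ((ι → ℝ) × (κ → ℝ)) => 2 * ‖p.2.1‖) (atTop ×ˢ 𝓝 0) (𝓝 0) :=
    ((continuous_const.mul continuous_fst.norm).tendsto' (0 : (ι → ℝ) × (κ → ℝ)) 0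
      (by simp)).comp tendsto_snd
  simpa using h1.max h2

lemma exp_le_pow (c : ℝ) (hc : 0 < c) (k : ℕ) {ε : ℝ} (hε : 0 < ε) :
    ∀ᶠ w : ℝ in atTop, Real.exp (-c * w) ≤ ε * w⁻¹ ^ k := by
  have h := tendsto_rpow_mul_exp_neg_mul_atTop_nhds_zero k c hc
  filter_upwards [h.eventually_le_const hε, eventually_gt_atTop 0] with w hw h0
  rw [Real.rpow_natCast] at hw
  rw [inv_pow, ← div_eq_mul_inv, le_div_iff₀ (by positivity)]
  linarith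

/-- The two consequences of the gradient inequality that are used for the real family: errors of
size `W ^ (-k)` are absorbed, and the Lojasiewicz inequality with such errors. -/
theorem absorb {Λ : Type*} [NormedAddCommGroup Λ] {f : (ι → ℝ) → Pt ι κ → ℂ} (h : LojOut f)
    {lam : ℕ → (ι → ℝ) × (κ → ℝ) → Λ} {C : ℝ}
    (hl : ∀ᶠ p : ℕ × ((ι → ℝ) × (κ → ℝ)) in atTop ×ˢ 𝓝 0,
      ‖fderiv ℂ (f fun _ => lvl p.1 p.2) (ofReal p.2)‖ ≤ C * ‖lam p.1 p.2‖) :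
    ∃ (F0 γ C' : ℝ) (k : ℕ), 1 < γ ∧ 0 ≤ C' ∧
      Tendsto (fun w : ℝ => f (fun _ => w) 0) atTop (𝓝 (F0 : ℂ)) ∧
      (∀ ε : ℝ, 0 < ε → ∀ᶠ p : ℕ × ((ι → ℝ) × (κ → ℝ)) in atTop ×ˢ 𝓝 0,
        (lvl p.1 p.2)⁻¹ ^ k ≤ ε * ‖lam p.1 p.2‖ + 1 / ((p.1 : ℝ) + 1)) ∧
      ∀ c : ℝ, 0 < c → ∀ᶠ p : ℕ × ((ι → ℝ) × (κ → ℝ)) in atTop ×ˢ 𝓝 0,
        (f (fun _ => lvl p.1 p.2) (ofReal p.2)).re + Real.exp (-c * lvl p.1 p.2)
          ≤ F0 + C' * ‖lam p.1 p.2‖ ^ γ + 1 / ((p.1 : ℝ) + 1) := by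
  obtain ⟨F0, θ, N, C₁, δ, w1, hθ, hθ1, hC₁, hδ, hlim, hL⟩ := h
  have hθ0 : 0 < θ := by linarith
  set γ := θ⁻¹ with hγ
  have hγ1 : 1 < γ := (one_lt_inv₀ hθ0).2 hθ1
  have hγ2 : γ ≤ 2 := by
    rw [hγ, inv_le_comm₀ hθ0 two_pos]; linarith
  set D := 2 * C₁ * |C| + 1 with hD
  have hD0 : 0 < D := by positivity
  have hx : ∀ᶠ p : ℕ × ((ι → ℝ) × (κ → ℝ)) in atTop ×ˢ 𝓝 0, ‖p.2‖ < δ :=
    tendsto_snd.eventually (p := fun x => ‖x‖ < δ)
      ((continuous_norm.tendsto' (0 : (ι → ℝ) × (κ → ℝ)) 0 norm_zero).eventually_lt_const hδ)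
  have hinv : Tendsto (fun p : ℕ × ((ι → ℝ) × (κ → ℝ)) => (lvl p.1 p.2)⁻¹) (atTop ×ˢ 𝓝 0)
      (𝓝 0) := tendsto_inv_atTop_zero.comp tendsto_lvl
  -- the main dichotomy
  have key : ∀ᶠ p : ℕ × ((ι → ℝ) × (κ → ℝ)) in atTop ×ˢ 𝓝 0,
      (lvl p.1 p.2 = p.1 + 1 ∨ (lvl p.1 p.2)⁻¹ ^ N ≤ 2 ^ N * D * ‖lam p.1 p.2‖) ∧
      ‖f (fun _ => lvl p.1 p.2) (ofReal p.2) - F0‖ ^ θ
        ≤ D * ‖lam p.1 p.2‖ + C₁ * Real.exp (-lvl p.1 p.2 / 4) := by
    filter_upwards [hl, hx, tendsto_lvl.eventually_ge_atTop w1, tendsto_lvl.eventually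
      (exp_le_pow (1 / 4) (by norm_num) N (show 0 < 1 / (2 * C₁ * 2 ^ N) by positivity))]
      with p h1 h2 h3 h4
    obtain ⟨h5, h6⟩ := hL _ h3 p.2 h2 (norm_mul_lvl _ _)
    have h7 : C₁ * ‖fderiv ℂ (f fun _ => lvl p.1 p.2) (ofReal p.2)‖
        ≤ C₁ * (|C| * ‖lam p.1 p.2‖) := by
      gcongr
      exact h1.trans (mul_le_mul_of_nonneg_right (le_abs_self C) (norm_nonneg _))
    have h8 : 0 ≤ C₁ * (|C| * ‖lam p.1 p.2‖) := by positivity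
    have h9 := norm_nonneg (lam p.1 p.2)
    refine ⟨(lvl_cases p.1 p.2).imp_right fun h10 => ?_, by rw [hD]; linarith⟩
    have e : -(1 / 4) * lvl p.1 p.2 = -lvl p.1 p.2 / 4 := by ring
    rw [e, h10, mul_pow] at h4
    have h11 : C₁ * Real.exp (-lvl p.1 p.2 / 4) ≤ ‖p.2.1‖ ^ N / 2 := by
      refine (mul_le_mul_of_nonneg_left h4 hC₁.le).trans (le_of_eq ?_)
      field_simp
    rw [h10, mul_pow, mul_assoc]
    gcongr
    rw [hD]; linarith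
  have small : ∀ (j : ℕ) (ε : ℝ), 0 < ε → ∀ᶠ p : ℕ × ((ι → ℝ) × (κ → ℝ)) in atTop ×ˢ 𝓝 0,
      (lvl p.1 p.2)⁻¹ ^ (j + 1) ≤ ε * (lvl p.1 p.2)⁻¹ ^ j ∧ (lvl p.1 p.2)⁻¹ ≤ 1 := by
    intro j ε hε
    filter_upwards [hinv.eventually_le_const hε, hinv.eventually_le_const one_pos] with p h1 h2
    have := inv_pos.2 (lvl_pos p.1 p.2)
    refine ⟨?_, h2⟩
    rw [pow_succ, mul_comm]
    gcongr
  refine ⟨F0, γ, (2 * D) ^ γ + 2 * (2 ^ N * D) ^ γ, N + 1, hγ1, by positivity, hlim,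
    fun ε hε => ?_, fun c hc => ?_⟩
  · filter_upwards [key, small N (ε / (2 ^ N * D)) (by positivity)] with p h1 h2
    have h3 := (inv_pos.2 (lvl_pos p.1 p.2)).le
    have h4 := norm_nonneg (lam p.1 p.2)
    have h5 : (0 : ℝ) ≤ 1 / ((p.1 : ℝ) + 1) := by positivity
    rcases h1.1 with h6 | h6
    · have h7 : (lvl p.1 p.2)⁻¹ ^ (N + 1) ≤ (lvl p.1 p.2)⁻¹ :=
        pow_le_of_le_one h3 h2.2 (Nat.succ_ne_zero N)
      rw [h6, ← one_div] at h7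
      rw [h6, ← one_div]
      linarith [mul_nonneg hε.le h4]
    · have h7 : ε / (2 ^ N * D) * (lvl p.1 p.2)⁻¹ ^ N
          ≤ ε / (2 ^ N * D) * (2 ^ N * D * ‖lam p.1 p.2‖) := by gcongr
      have e : ε / (2 ^ N * D) * (2 ^ N * D * ‖lam p.1 p.2‖) = ε * ‖lam p.1 p.2‖ := by
        field_simp
      linarith [h2.1]
  · filter_upwards [key, small 0 1 one_pos, tendsto_lvl.eventually
      (exp_le_pow c hc (2 * N + 1) (show (0 : ℝ) < 1 / 2 by norm_num)), tendsto_lvl.eventually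
      (exp_le_pow (1 / 4) (by norm_num) (2 * N + 1)
        (show 0 < 1 / (4 * C₁ + 1) / 2 by positivity))] with p h1 h2 h3 h4
    set u := (lvl p.1 p.2)⁻¹ with hu
    have hu0 : 0 < u := inv_pos.2 (lvl_pos p.1 p.2)
    set L := ‖lam p.1 p.2‖ with hL'
    have hL0 : 0 ≤ L := norm_nonneg _
    have hu1 : u ^ (2 * N + 1) ≤ 1 := pow_le_one₀ hu0.le h2.2
    have e : -(1 / 4) * lvl p.1 p.2 = -lvl p.1 p.2 / 4 := by ring
    rw [e] at h4
    set t := C₁ * Real.exp (-lvl p.1 p.2 / 4) with ht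
    have ht0 : 0 ≤ t := by positivity
    have h5 : 2 * t ≤ u ^ (2 * N + 1) / 4 := by
      have h6 : t ≤ C₁ * (1 / (4 * C₁ + 1) / 2 * u ^ (2 * N + 1)) :=
        mul_le_mul_of_nonneg_left h4 hC₁.le
      have h7 : C₁ * (1 / (4 * C₁ + 1)) ≤ 1 / 4 := by
        rw [mul_one_div, div_le_iff₀ (by positivity)]; linarith
      have h8 := mul_le_mul_of_nonneg_right h7 (pow_pos hu0 (2 * N + 1)).le
      linarith
    -- the gradient inequality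
    have h6 : ‖f (fun _ => lvl p.1 p.2) (ofReal p.2) - F0‖ ≤ (2 * D) ^ γ * L ^ γ + 2 * t := by
      have h7 : ‖f (fun _ => lvl p.1 p.2) (ofReal p.2) - F0‖ ≤ (D * L + t) ^ γ := by
        rw [hγ]
        exact (Real.le_rpow_inv_iff_of_pos (norm_nonneg _) (by positivity) hθ0).2 h1.2
      refine h7.trans ?_
      have h8 : 0 ≤ (2 * D) ^ γ * L ^ γ := by positivity
      rcases le_total (D * L) t with h9 | h9
      · have h10 : (D * L + t) ^ γ ≤ (2 * t) ^ γ := by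
          gcongr; linarith
        have h11 : (2 * t) ^ γ ≤ 2 * t := by
          refine Real.rpow_le_self_of_le_one (by positivity) (by linarith) hγ1.le
        linarith
      · have h10 : (D * L + t) ^ γ ≤ (2 * D * L) ^ γ := by
          gcongr; linarith
        rw [Real.mul_rpow (by positivity) hL0] at h10
        linarith
    have h7 : (f (fun _ => lvl p.1 p.2) (ofReal p.2)).re - F0
        ≤ ‖f (fun _ => lvl p.1 p.2) (ofReal p.2) - F0‖ := by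
      have := Complex.re_le_norm (f (fun _ => lvl p.1 p.2) (ofReal p.2) - F0)
      simpa using this
    have h8 : u ^ (2 * N + 1) ≤ (2 ^ N * D) ^ γ * L ^ γ + 1 / ((p.1 : ℝ) + 1) := by
      have h9 : 0 ≤ (2 ^ N * D) ^ γ * L ^ γ := by positivity
      have h10 : (0 : ℝ) ≤ 1 / ((p.1 : ℝ) + 1) := by positivity
      rcases h1.1 with h11 | h11
      · have h12 : u ^ (2 * N + 1) ≤ u := pow_le_of_le_one hu0.le h2.2 (Nat.succ_ne_zero _)
        have h13 : u = 1 / ((p.1 : ℝ) + 1) := by rw [hu, h11, one_div]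
        linarith
      · have h12 : (u ^ N) ^ γ ≤ (2 ^ N * D * L) ^ γ := by gcongr
        rw [Real.mul_rpow (by positivity) hL0] at h12
        have h13 : (u ^ N) ^ (2 : ℝ) ≤ (u ^ N) ^ γ :=
          Real.rpow_le_rpow_of_exponent_ge (by positivity) (pow_le_one₀ hu0.le h2.2) hγ2
        have h14 : u ^ (2 * N + 1) ≤ (u ^ N) ^ (2 : ℝ) := by
          rw [Real.rpow_two, ← pow_mul, mul_comm N 2]
          exact pow_le_pow_of_le_one hu0.le h2.2 (Nat.le_succ _)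
        linarith
    have h9 : 0 ≤ (2 ^ N * D) ^ γ * L ^ γ := by positivity
    have h10 : (0 : ℝ) ≤ 1 / ((p.1 : ℝ) + 1) := by positivity
    rw [add_mul]
    linarith

end Vale.Agent.P218LB
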